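import Vale.Agent.P011LH.Gq

/-!
Two properties of the model: stable singular points and the isotropic case.
-/

namespace Vale.Agent.P011LK

open Vale.Agent.P011.D4 Vale.Agent.P011.D4.Oct Vale.Agent.P011.MPQ Vale.Agent.P011LD
  Vale.Agent.P011LH Equiv Function

variable {k K : Type} [Field k] [Field K] [Algebra k K] {a b c c' : Kˣ} {σ κ : K ≃ₐ[k] K}
  {π : (K ≃ₐ[k] K) →* Perm (Fin 3)} {d : K} {y : RR K} {w : K →+* ℂ}

theorem fix_iff (hk : Cc w κ) {x : K} : κ x = x ↔ (w x).im = 0 := by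
  rw [← Complex.conj_eq_iff_im, ← hk, w.injective.eq_iff]

theorem sqrt_pos (hk : Cc w κ) {r z : K} (e : r ^ 2 = z) (h1 : κ z = z) (h2 : 0 < (w z).re) :
    κ r = r := by
  refine (sq_eq_sq_iff_eq_or_eq_neg.1 (by rw [← map_pow, e, h1])).resolve_right fun h => ?_
  have h3 := congrArg Complex.re (hk r)
  rw [h, map_neg, Complex.neg_re, Complex.conj_re] at h3
  rw [← e, map_pow, sq, Complex.mul_re] at h2
  nlinarith [mul_self_nonneg (w r).im]

theorem sqrt_neg (hk : Cc w κ) {r z : K} (e : r ^ 2 = z) (h1 : κ z = z) (h2 : (w z).re < 0) :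
    κ r = -r := by
  refine (sq_eq_sq_iff_eq_or_eq_neg.1 (by rw [← map_pow, e, h1])).resolve_left fun h => ?_
  rw [← e, map_pow, sq, Complex.mul_re, (fix_iff hk).1 h] at h2
  nlinarith [mul_self_nonneg (w r).re]

theorem cc_sq (hk : Cc w κ) : κ * κ = 1 := AlgEquiv.ext fun x => w.injective (by
  rw [AlgEquiv.mul_apply, hk, hk, Complex.conj_conj, AlgEquiv.one_apply])

/-- The singular points. -/
def wit (c : Kˣ) (d g h r : K) : Oct a b c := ⟨g • (et d r * ⟨0, 0, 1, 0⟩), h • et d r⟩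

theorem wit_mul {g h : K} (hg : g ^ 2 = c) (hh : h ^ 2 = -b) (r s : K) :
    (wit c d g h r : Oct a b c) * wit c d g h s = 0 := by
  have hb : (b : K) = -h ^ 2 := by rw [hh, neg_neg]
  apply ext8 <;> simp [wit, et, hb, ← hg] <;> ring

theorem star_wit (g h r : K) : star (wit c d g h r : Oct a b c) = (-1 : K) • wit c d g h r := by
  apply ext8 <;> simp [wit, et]

theorem qs_of [CharZero K] [IsAlgClosed K] (h : Md π a b c d y) (hk : Cc w κ)
    (ha : (w a).re < 0) (hb : (w b).re < 0) (hc : 0 < (w c).re)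
    (hy : ∀ i, (w (y i)).im = 0 → 0 < (w (y i)).re) :
    Qs (mo π d y κ : WW a b c → WW a b c) := by
  have hd := sqrt_neg hk h.sq (h.fa κ) ha
  have d0 := d_ne h.sq
  obtain ⟨g, hg⟩ := IsAlgClosed.exists_pow_nat_eq (c : K) two_pos
  obtain ⟨f, hf⟩ := IsAlgClosed.exists_pow_nat_eq (-b : K) two_pos
  have e1 := sqrt_pos hk hg (h.fc κ) hc
  have e2 := sqrt_pos hk hf (by rw [map_neg, h.fb]) (by simpa using hb)
  have f0 : f ≠ 0 := fun e => b.ne_zero (by simp [e] at hf)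
  choose s hs using fun i => IsAlgClosed.exists_pow_nat_eq (y i) two_pos
  have e3 : ∀ i, κ (y i) = y (π κ i) := fun i => by rw [← ac_perm (π := π κ), h.fy]
  have e4 : ∀ i, π κ (π κ i) = i := fun i => by
    rw [← Perm.mul_apply, ← map_mul, cc_sq hk, map_one, Perm.one_apply]
  obtain ⟨ρ, e5⟩ : ∃ ρ : RR K, ∀ i, ρ (π κ i) * κ (ρ i) = y (π κ i) := by
    refine ⟨fun i => if π κ i = i then s i else if i < π κ i then 1 else y i, fun i => ?_⟩
    simp only [e4]
    rcases lt_trichotomy i (π κ i) with e | e | e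
    · simp [e, e.ne, e.ne', e.not_gt]
    · have := e3 i
      rw [← e] at this
      simp only [← e, if_true]
      rw [sqrt_pos hk (hs i) this (hy i ((fix_iff hk).1 this)), ← sq, hs]
    · simp [e, e.ne, e.ne', e.not_gt, e3]
  have ρ0 : ∀ i, κ (ρ i) ≠ 0 := fun i e => h.y0 _ (by rw [← e5, e, mul_zero])
  obtain ⟨ε, ε0, hε⟩ : ∃ ε : K, ε ≠ 0 ∧ ∀ g f d r : K,
      cj (π κ) (wit c d g f r : Oct a b c) = ε • wit c d g f r := by
    rcases perm_cases (π κ) with ⟨e, -⟩ | ⟨e, -⟩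
    · exact ⟨1, one_ne_zero, fun _ _ _ _ => by rw [cj_even e, one_smul]⟩
    · exact ⟨-1, by simp, fun _ _ _ _ => by rw [cj_odd e, star_wit]⟩
  refine ⟨fun i => wit c d g f (ρ i), fun i e => ?_, funext fun i => ?_,
    mku (fun j => ε / ρ j) fun j => div_ne_zero ε0 (by
      rw [← e4 j]; exact left_ne_zero_of_mul (e5 _ ▸ h.y0 _)), ext_perm (π κ) fun i => ?_⟩
  · have e6 := congrArg (fun x => x.snd.re + d * x.snd.imI) e
    simp only [wit, et, QuaternionAlgebra.re_smul, QuaternionAlgebra.imI_smul, smul_eq_mul,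
      snd_zero, QuaternionAlgebra.re_zero, QuaternionAlgebra.imI_zero] at e6
    field_simp at e6
    exact f0 (by linear_combination (1 / 2 : K) * e6)
  · simp [bt, wit_mul hg hf]
  · have e6 : cm κ (wit c d g f (ρ i) : Oct a b c) = wit c (-d) g f (κ (ρ i)) := by
      apply ext8 <;> simp [cm, cq, wit, et, e1, e2, hd, map_ofNat]
    have e7 := (prod3 y (π κ i)).trans h.nm
    have y1 := h.y0 (π κ i + 1)
    have y2 := h.y0 (π κ i + 2)
    have e8 : y (π κ i) = (y (π κ i + 1) * y (π κ i + 2))⁻¹ :=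
      eq_inv_of_mul_eq_one_left (by rw [← e7, mul_assoc])
    have e9 : ρ (π κ i) = (y (π κ i + 1) * y (π κ i + 2) * κ (ρ i))⁻¹ := by
      rw [mul_inv, ← e8, ← e5, mul_inv_cancel_right₀ (ρ0 i)]
    have := ρ0 i
    rw [mo_neg (hd ▸ neg_ne h.sq), tw, gq, std_perm, e6, hε, usm, nrd_et h.sq, e9, e8]
    apply ext8 <;> simp [wit, et, mku, e9, ← h.sq] <;> field_simp <;> ring

/-- The isomorphisms which fix the quaternions. -/
def cmv (c' : Kˣ) (u : Qt a b) (x : Oct a b c) : Oct a b c' := ⟨x.fst, u * x.snd⟩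

theorem cmv_cmv (c'' : Kˣ) (u v : Qt a b) (x : Oct a b c) :
    cmv c'' u (cmv c' v x) = cmv c'' (u * v) x := Oct.ext rfl (mul_assoc _ _ _).symm

theorem hm_cmv {u : Qt a b} (h : c' * nrd u = c) :
    Hm (1 : K ≃ₐ[k] K) (cmv c' u : Oct a b c → Oct a b c') := by
  have u0 : nrd u ≠ 0 := right_ne_zero_of_mul (h ▸ c.ne_zero)
  refine ⟨fun _ _ => Oct.ext rfl (mul_add _ _ _), fun _ _ => Oct.ext rfl (mul_smul_comm _ _ _),
    bijective_iff_has_inverse.2 ⟨cmv c ((nrd u)⁻¹ • star u), fun x => ?_, fun x => ?_⟩,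
    fun v w => Oct.ext ?_ ?_, fun _ => Oct.ext rfl (mul_neg _ _)⟩
  · rw [cmv_cmv, smul_mul_assoc, qstar_mul, inv_smul_smul₀ u0]
    exact Oct.ext rfl (one_mul _)
  · rw [cmv_cmv, mul_smul_comm, qmul_star, inv_smul_smul₀ u0]
    exact Oct.ext rfl (one_mul _)
  · simp only [cmv, fst_mul, star_mul, mul_assoc, ← h, mul_smul]
    rw [← mul_assoc (star u), qstar_mul, smul_mul_assoc, one_mul, mul_smul_comm]
  · simp only [cmv, snd_mul, mul_add, mul_assoc]

theorem mo_cmv (ha : σ a = a) (hb : σ b = b) (u : Qt a b) (x : WW a b c) :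
    mo π d y σ (fun i => cmv c' u (x i)) = fun i => cmv c' (cq σ u) (mo π d y σ x i) := by
  have e : std π σ (fun i => cmv c' u (x i)) = fun i => cmv c' (cq σ u) (std π σ x i) :=
    ext_perm (π σ) fun i => by
      rw [std_perm, std_perm]
      unfold cj
      split_ifs
      · exact Oct.ext rfl (cq_mul ha hb _ _)
      · exact Oct.ext rfl ((congrArg Neg.neg (cq_mul ha hb _ _)).trans (mul_neg _ _).symm)
  unfold mo
  split_ifs
  · exact e
  · rw [e]
    exact funext fun i => Oct.ext rfl (by simp only [gq, cmv, mul_smul_comm, mul_assoc])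

theorem not_an [CharZero K] (h : Md π a 1 c d y) : ¬An (mo π d y : _ → WW a 1 c → WW a 1 c) := by
  intro hA
  let u : Kˣ → Qt a 1 := fun t => ⟨(t + t⁻¹) / 2, 0, (t - t⁻¹) / 2, 0⟩
  have u1 : ∀ t, c * nrd (u t) = c := fun t => by
    simp only [nrd, u, Units.val_one, Units.val_inv_eq_inv_val]
    field_simp
    ring
  have sm := fun t => (hm_cmv (k := k) (u1 t)).sm 1
  have ap : ∀ t x, (sm t).le x = fun i => cmv c (u t) (x i) := fun t x => funext fun i => cj_one _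
  have := hA (MonoidHom.mk' (fun t => ⟨(sm t).le, fun x z => ((sm t).mul x z).trans (one_smul _ _)⟩)
    fun s t => Subtype.ext (LinearEquiv.ext fun x => ?_))
    ⟨fun x i => ⟨(x i).fst, 0⟩, fun x i => ⟨0, ⟨1 / 2, 0, 1 / 2, 0⟩ * (x i).snd⟩,
      fun x i => ⟨0, ⟨1 / 2, 0, -1 / 2, 0⟩ * (x i).snd⟩, fun t x => ?_⟩ (fun σ t x => ?_)
    (Units.mk0 2 two_ne_zero)
  · have e := congrArg (fun g : Spin a 1 c => (g.1 (fun _ => ⟨0, 1⟩) 0).snd.re) this
    simp only [MonoidHom.mk'_apply, ap, cmv, u] at e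
    norm_num at e
  · simp only [Subgroup.coe_mul, LinearEquiv.mul_apply, ap, cmv_cmv]
    ext <;> simp [u] <;> ring
  · simp only [MonoidHom.mk'_apply, ap]
    funext i
    apply ext8 <;> simp [cmv, u] <;> ring
  · simp only [MonoidHom.mk'_apply, ap]
    rw [mo_cmv (h.fa σ) (h.fb σ)]
    ext <;> simp [u, cq, map_ofNat]

end Vale.Agent.P011LK
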